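import Crest.Agent.N255.Io.Crd
import Crest.Agent.N255.Wt.Vb

/-!
# Row 255 (helper11): `io` is monotone (fields `near`, `far`, `hy`) from orders and linear parts
-/

set_option autoImplicit false
set_option linter.unusedSectionVars false
open Set Function

noncomputable section

namespace Crest.Agent.N255.Io

open _root_.N255.Dr _root_.N255.Dr.O Tg
open _root_.N255.Core (Wall Ok Hi)
open _root_.N255.Wt

theorem ord_lt {c : ℕ} {s : Type} {σ : Sg c s} {x : s} {q : ℕ} (hc : 3 ≤ c) (h2 : 2 ≤ q)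
    (hq : σ.sc x ≤ q + 8 * c) : N0 c + σ.F x < N0 c * q := by
  have h1 := Sg.F_le' (σ := σ) x
  obtain ⟨k, rfl⟩ := Nat.exists_eq_add_of_le h2
  have : k ≤ c * k := Nat.le_mul_of_pos_left k (by omega)
  unfold N0
  nlinarith

variable {p : ℕ} [Fact p.Prime] {Γ : Type} [AddCommGroup Γ] {δ : Γ} {s : Fin 3 → Type}
  [∀ i, Fintype (s i)] {w : ∀ i, Wall p Γ δ (s i)} {c n : ℕ}

/-- the heavier variables -/
def Hv (w : ∀ i, Wall p Γ δ (s i)) (i : Fin 3) (x : s i) : Set (Σ i, s i) :=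
  {a | (w i).F x < (w a.1).F a.2}

variable (T : Ty w c n) {i j : Fin 3} {x : s i} {y : s j}
include T

theorem Hv_y (hx : (w i).kd x ≠ none) (h : (T.σ i).sc x ≤ 4 * c) (hy : (w j).kd y = none) :
    (⟨j, y⟩ : Σ i, s i) ∈ Hv w i x := by
  have h1 := Sg.F_lt_N1 (σ := T.σ i) T.pos (T.kd i x ▸ hx) h
  have h2 := T.F_y hy
  rw [← T.F] at h1
  change (w i).F x < (w j).F y
  omega

theorem Hv_w (hx : (w i).kd x ≠ none) (h1 : (T.σ i).hol x = false) (h : (T.σ i).sc x ≤ 2 * c)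
    (hy : (w j).kd y ≠ none) (h2 : (T.σ j).hol y = true) : (⟨j, y⟩ : Σ i, s i) ∈ Hv w i x := by
  change (w i).F x < (w j).F y
  rw [T.F, T.F]
  exact Sg.F_lt_w (by have := T.pos; omega) (T.kd i x ▸ hx) h1 h (T.kd j y ▸ hy) h2

theorem Hv_dp (hx : (w i).kd x ≠ none) (h1 : (T.σ i).hol x = false) (h : (T.σ i).sc x = 0)
    (hy : (w j).kd y ≠ none) (h2 : (T.σ j).hol y = false) (hd : (T.σ i).dp x < (T.σ j).dp y) :
    (⟨j, y⟩ : Σ i, s i) ∈ Hv w i x := by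
  change (w i).F x < (w j).F y
  rw [T.F, T.F]
  exact Sg.F_lt_dp (T.kd i x ▸ hx) h1 h (T.kd j y ▸ hy) h2 hd

/-- the admissible corrections of the variable `x`: high order, or (macroscopic `x`) order two plus
heavier variables -/
def Adm {τ : Type} (inc : (Σ i, s i) → τ) (i : Fin 3) (x : s i) (f : O p (ZMod p) τ) : Prop :=
  (∃ q, 2 ≤ q ∧ (T.σ i).sc x ≤ q + 8 * c ∧ f ∈ mx ^ q) ∨
    ((T.σ i).sc x ≤ 4 * c ∧ f ∈ mx ^ 2 ⊔ Zs p (ZMod p) (inc '' Hv w i x))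

variable {T} {τ : Type} [Fintype τ] {inc : (Σ i, s i) → τ} {f : O p (ZMod p) τ}

theorem Adm.sup (h : Adm T inc i x f) : f ∈ mx ^ 2 ⊔ Zs p (ZMod p) (inc '' Hv w i x) :=
  h.elim (fun ⟨_, h2, _, h⟩ => Ideal.mem_sup_left (Ideal.pow_le_pow_right h2 h)) And.right

theorem Adm.mem (h : Adm T inc i x f) : f ∈ mx :=
  (sup_le (Ideal.pow_le_self two_ne_zero) (Zs_mx _) : _ ≤ mx) h.sup


theorem Adm.hi (h : Adm T inc i x f) (hx : (w i).kd x ≠ none) {o : τ → ℕ} (h0 : ∀ a, N0 c ≤ o a)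
    (ho : ∀ a, min (N0 c + (w a.1).F a.2) (N1 c) ≤ o (inc a)) : Hi o (N0 c + (w i).F x) f := by
  rw [hi_Ge]
  rcases h with ⟨q, h2, hq, h⟩ | ⟨h1, h⟩
  · have := ord_lt T.pos h2 hq
    rw [← T.F, mul_comm] at this
    exact (flt_Ge o).anti (by omega) (pow_le_Ge h0 q h)
  · have k1 := Sg.F_lt_N1 (σ := T.σ i) T.pos (T.kd i x ▸ hx) h1
    rw [← T.F] at k1
    refine sup_le_Ge h0 (by unfold N0 N1 at *; omega) ?_ h
    rintro _ ⟨a, ha, rfl⟩
    have k2 := ho a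
    have k3 : (w i).F x < (w a.1).F a.2 := ha
    omega

variable {t : Fin 3 → Bool} {io : ∀ i, O p (ZMod p) (s i) →ₐ[ZMod p] O p (ZMod p) τ}
  {o : Fin 3 → τ → ℕ}

/-- the field `near` (including the variables `y`) -/
theorem near_adm (hy : ∀ i x, (w i).kd x = none → io i (z x) = z (inc ⟨i, x⟩))
    (h : ∀ i x, (w i).kd x ≠ none → Adm T inc i x (io i (z x) - z (inc ⟨i, x⟩)))
    (h0 : ∀ i a, N0 c ≤ o i a) (ho : ∀ i a, min (N0 c + (w a.1).F a.2) (N1 c) ≤ o i (inc a))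
    (i : Fin 3) (x : s i) : Hi (o i) (N0 c + (w i).F x) (io i (z x) - z (inc ⟨i, x⟩)) := by
  by_cases hx : (w i).kd x = none
  · rw [hy i x hx, sub_self]
    exact fun a ha => absurd (map_zero _) ha
  · exact (h i x hx).hi hx (h0 i) (ho i)


omit T in
/-- `io` preserves the maximal ideals -/
theorem io_z_mx {T : Ty w c n} (hy : ∀ i x, (w i).kd x = none → io i (z x) = z (inc ⟨i, x⟩))
    (h : ∀ i x, (w i).kd x ≠ none → Adm T inc i x (io i (z x) - z (inc ⟨i, x⟩))) (i : Fin 3) (x : s i) :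
    io i (z x) ∈ mx := by
  by_cases hx : (w i).kd x = none
  · rw [hy i x hx]; exact z_mem _
  · simpa using add_mem (h i x hx).mem (z_mem (inc ⟨i, x⟩))

end Crest.Agent.N255.Io

end
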